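import Vale.Agent.P329.Height2.FrontEnd

/-!
P329: the atoms of a local group of a block automaton.  The atoms that move form a single orbit.
-/

namespace Vale.Agent.P329.Height2

/-- The image of a set of states under a relation. -/
def act {Q : Type} (X : Set Q) (h : Rel Q) : Set Q := {q | ∃ p ∈ X, h.rel p q}

section Act

variable {Q : Type} {X Y : Set Q}

lemma act_act (X : Set Q) (h h' : Rel Q) : act (act X h) h' = act X (h * h') := by
  ext q
  constructor
  · rintro ⟨r, ⟨p, hp, h1⟩, h2⟩
    exact ⟨p, hp, r, h1, h2⟩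
  · rintro ⟨p, hp, r, h1, h2⟩
    exact ⟨r, ⟨p, hp, h1⟩, h2⟩

lemma act_mono (hXY : X ⊆ Y) (h : Rel Q) : act X h ⊆ act Y h :=
  fun _ ⟨p, hp, hq⟩ => ⟨p, hXY hp, hq⟩

lemma act_one (X : Set Q) : act X 1 = X := by
  ext q
  constructor
  · rintro ⟨p, hp, rfl⟩
    exact hp
  · exact fun h => ⟨q, h, rfl⟩

lemma mem_act_single {p q : Q} {h : Rel Q} : q ∈ act {p} h ↔ h.rel p q := by simp [act]

lemma act_eq_iUnion (X : Set Q) (h : Rel Q) : act X h = ⋃ p ∈ X, act {p} h := by
  ext q
  simp [act]

end Act

namespace Block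

variable {α : Type} (B : Block α) (u : List α)

/-- A nonempty fixed set that is not a union of smaller images. -/
structure Atom (X : Set (Option B.N)) : Prop where
  nonempty : X.Nonempty
  fixed : act X (B.trans u) = X
  irred : ∀ S, act S (B.trans u) = X → ∃ q ∈ S, act {q} (B.trans u) = X

/-- An atom contains a state whose image is the whole atom. -/
lemma Atom.exists_root {X : Set (Option B.N)} (hX : B.Atom u X) :
    ∃ r ∈ X, act {r} (B.trans u) = X := hX.irred X hX.fixed

/-- The states reachable from the cut state. -/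
def FromCut (q : Option B.N) : Prop := ∃ z, (B.trans z).rel none q

/-- The states from which a cut can be reached. -/
def Live (q : Option B.N) : Prop := ∃ z, (B.trans z).rel q none

lemma fromCut_none : B.FromCut none := ⟨[], rfl⟩

lemma fromCut_trans {q q' : Option B.N} (hq : B.FromCut q) {w : List α}
    (h : (B.trans w).rel q q') : B.FromCut q' := by
  obtain ⟨z, hz⟩ := hq
  exact ⟨z ++ w, by rw [trans_append]; exact ⟨q, hz, h⟩⟩

/-- A block that can be closed leads to the cut state. -/
lemma rel_none_of_mem {q : Option B.N} {a : List α} (ha : a ≠ [])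
    (hF : B.val q * ev B.μ a ∈ B.F) : (B.trans a).rel q none :=
  (B.trans_iff a q none).mpr (Or.inr (Or.inr ⟨a, [], ha, (List.append_nil a).symm, hF, rfl⟩))

/-- A target not reachable from the cut state is reached without cuts. -/
lemma eq_some_of_not_fromCut {q q' : Option B.N} {w : List α} (h : (B.trans w).rel q q')
    (hq : ¬ B.FromCut q') : (w = [] ∧ q' = q) ∨ q' = some (B.val q * ev B.μ w) := by
  rcases (B.trans_iff w q q').mp h with h | ⟨-, h⟩ | ⟨_, v, -, -, -, hv⟩
  · exact Or.inl h
  · exact Or.inr h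
  · exact absurd ⟨v, hv⟩ hq

end Block

/-- A block automaton with a word whose local monoid is a group. -/
structure LocalData (α : Type) : Type 1 where
  /-- The automaton. -/
  B : Block α
  /-- The word of the identity. -/
  u : List α
  idem : B.trans u * B.trans u = B.trans u
  inv : ∀ z, ∃ z', B.trans u * B.trans (z ++ u ++ z') * B.trans u = B.trans u

namespace LocalData

variable {α : Type} (D : LocalData α)

/-- The local group element of a word. -/
def h (z : List α) : Rel (Option D.B.N) := D.B.trans (D.u ++ z ++ D.u)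

lemma h_eq (z : List α) : D.h z = D.B.trans D.u * D.B.trans z * D.B.trans D.u := by
  simp [h, Block.trans_append, mul_assoc]

lemma idem_mul (x : Rel (Option D.B.N)) :
    D.B.trans D.u * (D.B.trans D.u * x) = D.B.trans D.u * x := by rw [← mul_assoc, D.idem]

lemma h_mul (z z' : List α) : D.h z * D.h z' = D.h (z ++ D.u ++ z') := by
  simp only [h_eq, Block.trans_append, mul_assoc, D.idem_mul]

lemma h_nil : D.h [] = D.B.trans D.u := by
  simp only [h_eq]
  rw [show D.B.trans [] = 1 from rfl, mul_one, D.idem]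

lemma h_idem (z : List α) : D.h z * D.B.trans D.u = D.h z := by
  simp only [h_eq, mul_assoc, D.idem]

lemma idem_h (z : List α) : D.B.trans D.u * D.h z = D.h z := by
  simp only [h_eq, mul_assoc, D.idem_mul]

/-- Two sided inverses. -/
lemma exists_inv (z : List α) :
    ∃ z', D.h z * D.h z' = D.B.trans D.u ∧ D.h z' * D.h z = D.B.trans D.u := by
  obtain ⟨z', hz'⟩ := D.inv z
  obtain ⟨z'', hz''⟩ := D.inv z'
  rw [← h_eq, ← h_mul] at hz' hz''
  refine ⟨z', hz', ?_⟩
  have : D.h z = D.h z'' := by
    calc D.h z = D.h z * (D.h z' * D.h z'') := by rw [hz'', D.h_idem]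
      _ = D.h z'' := by rw [← mul_assoc, hz', D.idem_h]
  rwa [this]

/-- Iterating a local group element returns to the identity. -/
lemma exists_pow (z : List α) :
    ∃ z', ∃ k, 1 ≤ k ∧ D.h z ^ k = D.B.trans D.u ∧ D.h z * D.h z' = D.B.trans D.u := by
  obtain ⟨z', h1, h2⟩ := D.exists_inv z
  obtain ⟨n, hn, hidem⟩ := exists_pow_idem (D.h z)
  refine ⟨z', n, hn, ?_, h1⟩
  have key : ∀ m, 1 ≤ m → D.B.trans D.u * D.h z ^ m = D.h z ^ m ∧
      D.h z' ^ m * D.h z ^ m = D.B.trans D.u := by
    intro m hm
    induction m with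
    | zero => omega
    | succ m ih =>
      rcases Nat.eq_zero_or_pos m with rfl | hm'
      · simp [h2, D.idem_h]
      · obtain ⟨i1, i2⟩ := ih hm'
        refine ⟨by rw [pow_succ, ← mul_assoc, i1], ?_⟩
        calc D.h z' ^ (m + 1) * D.h z ^ (m + 1)
            = D.h z' * (D.h z' ^ m * D.h z ^ m) * D.h z := by
              rw [pow_succ' (D.h z'), pow_succ (D.h z)]; simp only [mul_assoc]
          _ = D.B.trans D.u := by rw [i2, D.h_idem, h2]
  obtain ⟨k1, k2⟩ := key n hn
  calc D.h z ^ n = D.B.trans D.u * D.h z ^ n := k1.symm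
    _ = D.h z' ^ n * (D.h z ^ n * D.h z ^ n) := by rw [← k2, mul_assoc]
    _ = D.B.trans D.u := by rw [hidem, k2]

variable {X Y : Set (Option D.B.N)}

/-- The group permutes atoms. -/
lemma atom_act (hX : D.B.Atom D.u X) (z : List α) : D.B.Atom D.u (act X (D.h z)) := by
  obtain ⟨z', h1, h2⟩ := D.exists_inv z
  have back : act (act X (D.h z)) (D.h z') = X := by rw [act_act, h1, hX.fixed]
  refine ⟨?_, by rw [act_act, D.h_idem], fun S hS => ?_⟩
  · by_contra hne
    rw [Set.not_nonempty_iff_eq_empty] at hne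
    rw [hne] at back
    have hX' := hX.nonempty
    rw [← back] at hX'
    obtain ⟨_, _, hp, -⟩ := hX'
    exact hp
  · have hS' : act (act S (D.h z')) (D.B.trans D.u) = X := by
      rw [act_act, D.h_idem, ← back, ← hS, act_act, D.idem_h]
    obtain ⟨r, ⟨q, hq, hqr⟩, hr⟩ := hX.irred _ hS'
    refine ⟨q, hq, ?_⟩
    have hqX : act {q} (D.h z') = X := by
      refine Set.Subset.antisymm ?_ ?_
      · calc act {q} (D.h z') ⊆ act S (D.h z') := act_mono (by simpa using hq) _
          _ = X := by rw [← back, ← hS, act_act, D.idem_h]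
      · calc X = act {r} (D.B.trans D.u) := hr.symm
          _ ⊆ act (act {q} (D.h z')) (D.B.trans D.u) :=
            act_mono (by simpa [mem_act_single] using hqr) _
          _ = act {q} (D.h z') := by rw [act_act, D.h_idem]
    rw [← hqX, act_act, h2]

/-- An atom contained in its image is fixed. -/
lemma eq_of_subset_act (hX : D.B.Atom D.u X) {z : List α} (h : X ⊆ act X (D.h z)) :
    act X (D.h z) = X := by
  obtain ⟨z', k, hk, hpow, -⟩ := D.exists_pow z
  have hup : ∀ j, 1 ≤ j → act X (D.h z) ⊆ act X (D.h z ^ j) := by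
    intro j hj
    induction j with
    | zero => omega
    | succ j ih =>
      rcases Nat.eq_zero_or_pos j with rfl | hj'
      · simp
      · rw [pow_succ', ← act_act]
        exact (ih hj').trans (act_mono h _)
  refine Set.Subset.antisymm ?_ h
  refine (hup k hk).trans ?_
  rw [hpow, hX.fixed]

/-- An atom with a root that returns to itself only without cuts is fixed by the group. -/
lemma fixed_of_cutfree (hX : D.B.Atom D.u X) {n : D.B.N} (hrX : some n ∈ X)
    (hr : act {some n} (D.B.trans D.u) = X)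
    (hfree : ∀ v, (D.B.trans v).rel (some n) (some n) → n * ev D.B.μ v = n) (z : List α) :
    act X (D.h z) = X := by
  obtain ⟨-, k, hk, hpow, -⟩ := D.exists_pow z
  set w := D.u ++ z ++ D.u with hw
  set m := ev D.B.μ w with hm
  have htr : ∀ j, D.B.trans (List.replicate j w).flatten = D.h z ^ j := by
    intro j
    induction j with
    | zero => rfl
    | succ j ih =>
      rw [List.replicate_succ, List.flatten_cons, Block.trans_append, ih, pow_succ']
      rfl
  have hev : ∀ j, ev D.B.μ (List.replicate j w).flatten = m ^ j := by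
    intro j
    induction j with
    | zero => simp
    | succ j ih => rw [List.replicate_succ, List.flatten_cons, ev_append, ih, pow_succ']
  have hfix : ∀ j, n * m ^ (k * (j + 1)) = n := by
    intro j
    rw [← hev]
    refine hfree _ ?_
    rw [htr, pow_mul, hpow]
    have hp : ∀ i, D.B.trans D.u ^ (i + 1) = D.B.trans D.u := by
      intro i
      induction i with
      | zero => simp
      | succ i ih => rw [pow_succ, ih, D.idem]
    rw [hp, ← mem_act_single, hr]
    exact hrX
  obtain ⟨i, hi, hid⟩ := exists_pow_idem m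
  have hik : ∀ k', (m ^ i) ^ (k' + 1) = m ^ i := by
    intro k'
    induction k' with
    | zero => simp
    | succ k' ih => rw [pow_succ, ih, hid]
  have hnm : n * m = n := by
    have he : m ^ i * (m ^ i * m) = m ^ i * m := by rw [← mul_assoc, hid]
    have hc : m ^ i * m * m ^ i = m ^ i * m := by
      rw [mul_assoc, ← pow_succ', pow_succ, ← mul_assoc, hid]
    have hgf := D.B.groupFree (m ^ i) (m ^ i * m) (m ^ (i + i - 1)) hid he hc (by
      rw [← pow_succ, ← pow_add]
      rw [show i + 1 + (i + i - 1) = i + i + i by omega, pow_add, pow_add, hid, hid])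
    have h2 : n * m ^ i = n := by
      have := hfix (i - 1)
      rwa [show i - 1 + 1 = i by omega, mul_comm, pow_mul,
        show k = k - 1 + 1 by omega, hik] at this
    calc n * m = n * m ^ i * m := by rw [h2]
      _ = n * (m ^ i * m) := mul_assoc _ _ _
      _ = n := by rw [hgf, h2]
  have hmem : some n ∈ act X (D.h z) := by
    refine ⟨some n, hrX, ?_⟩
    show (D.B.trans w).rel _ _
    rw [Block.trans_iff]
    rcases eq_or_ne w [] with h0 | h0
    · exact Or.inl ⟨h0, rfl⟩
    · exact Or.inr (Or.inl ⟨h0, congrArg some hnm.symm⟩)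
  refine D.eq_of_subset_act hX ?_
  calc X = act {some n} (D.B.trans D.u) := hr.symm
    _ ⊆ act (act X (D.h z)) (D.B.trans D.u) := act_mono (by simpa using hmem) _
    _ = act X (D.h z) := by rw [act_act, D.h_idem]

/-- An atom that moves has a root reachable from the cut state. -/
lemma exists_root_fromCut (hX : D.B.Atom D.u X) (hmove : ∃ z, act X (D.h z) ≠ X) :
    ∃ r, D.B.FromCut r ∧ act {r} (D.B.trans D.u) = X := by
  obtain ⟨z, hz⟩ := hmove
  obtain ⟨r, hrX, hr⟩ := hX.exists_root
  by_contra hcon
  have hnc : ¬ D.B.FromCut r := fun h => hcon ⟨r, h, hr⟩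
  obtain ⟨n, rfl⟩ : ∃ n, r = some n :=
    Option.ne_none_iff_exists'.mp fun h => hnc (h ▸ D.B.fromCut_none)
  refine hz (D.fixed_of_cutfree hX hrX hr (fun v hv => ?_) z)
  rcases D.B.eq_some_of_not_fromCut hv hnc with ⟨rfl, -⟩ | h0
  · simp
  · exact (Option.some_injective _ h0).symm

/-- An atom that moves contains a live state. -/
lemma exists_live (hX : D.B.Atom D.u X) (hmove : ∃ z, act X (D.h z) ≠ X) :
    ∃ q ∈ X, D.B.Live q := by
  obtain ⟨z, hz⟩ := hmove
  obtain ⟨r, hrX, hr⟩ := hX.exists_root
  by_contra hcon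
  have hnl : ¬ D.B.Live r := fun h => hcon ⟨r, hrX, h⟩
  obtain ⟨n, rfl⟩ : ∃ n, r = some n :=
    Option.ne_none_iff_exists'.mp fun h => hnl (h ▸ ⟨[], rfl⟩)
  refine hz (D.fixed_of_cutfree hX hrX hr (fun v hv => ?_) z)
  rcases (D.B.trans_iff v _ _).mp hv with ⟨rfl, -⟩ | ⟨-, h0⟩ | ⟨a, b, ha, rfl, hF, -⟩
  · simp
  · exact (Option.some_injective _ h0).symm
  · exact absurd ⟨a, D.B.rel_none_of_mem ha hF⟩ hnl

/-- **One orbit.** The atoms that move form a single orbit of the group. -/
theorem one_orbit (hX : D.B.Atom D.u X) (hY : D.B.Atom D.u Y)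
    (mX : ∃ z, act X (D.h z) ≠ X) (mY : ∃ z, act Y (D.h z) ≠ Y) : ∃ z, act X (D.h z) = Y := by
  have key : ∀ {X Y}, D.B.Atom D.u X → D.B.Atom D.u Y → (∃ z, act X (D.h z) ≠ X) →
      (∃ z, act Y (D.h z) ≠ Y) → ∃ z, Y ⊆ act X (D.h z) := by
    intro X Y hX hY mX mY
    obtain ⟨q, hq, z1, hz1⟩ := D.exists_live hX mX
    obtain ⟨r, ⟨t, ht⟩, hr⟩ := D.exists_root_fromCut hY mY
    refine ⟨z1 ++ t, ?_⟩
    have hmem : r ∈ act X (D.B.trans (z1 ++ t)) :=
      ⟨q, hq, by rw [Block.trans_append]; exact ⟨none, hz1, ht⟩⟩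
    calc Y = act {r} (D.B.trans D.u) := hr.symm
      _ ⊆ act (act X (D.B.trans (z1 ++ t))) (D.B.trans D.u) := act_mono (by simpa using hmem) _
      _ = act X (D.h (z1 ++ t)) := by
        conv_lhs => rw [← hX.fixed]
        rw [act_act, act_act, h_eq, mul_assoc]
  obtain ⟨z, hz⟩ := key hX hY mX mY
  obtain ⟨z', hz'⟩ := key hY hX mY mX
  have h1 : act Y (D.h z') ⊆ act X (D.h (z ++ D.u ++ z')) := by
    rw [← D.h_mul, ← act_act]
    exact act_mono hz _
  have h2 : act X (D.h (z ++ D.u ++ z')) = X := D.eq_of_subset_act hX (hz'.trans h1)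
  have h3 : act Y (D.h z') = X := Set.Subset.antisymm (h2 ▸ h1) hz'
  obtain ⟨z'', e1, -⟩ := D.exists_inv z'
  exact ⟨z'', by rw [← h3, act_act, e1, hY.fixed]⟩

end LocalData

namespace Block

variable {α β : Type} (B : Block α) (f : β → α)

/-- The automaton over a smaller alphabet. -/
def comap : Block β :=
  { N := B.N, μ := fun b => B.μ (f b), F := B.F, groupFree := B.groupFree }

lemma trans_comap (w : List β) : (B.comap f).trans w = B.trans (w.map f) := by
  induction w with
  | nil => rfl
  | cons b w ih =>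
    rw [trans_cons, List.map_cons, trans_cons, ← ih]
    rfl

end Block

end Vale.Agent.P329.Height2
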