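import Vale.Agent.P329.Height2.Rel
import Vale.Agent.P329.Closure

/-!
P329: the block automaton of the star of a language recognised by a finite monoid without groups.
-/

namespace Vale.Agent.P329.Height2

/-- A language recognised by a finite monoid without groups, as data. -/
structure Block (α : Type) : Type 1 where
  /-- The monoid. -/
  N : Type
  [monoid : Monoid N]
  [finite : Finite N]
  /-- Images of the letters. -/
  μ : α → N
  /-- The accepted elements. -/
  F : Set N
  groupFree : GroupFree N

attribute [instance] Block.monoid Block.finite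

namespace Block

variable {α : Type} (B : Block α)

/-- The value of a state: `none` is the cut state. -/
def val (q : Option B.N) : B.N := q.getD 1

/-- Transitions on one letter: extend the current block, or extend it and cut. -/
def step (a : α) : Rel (Option B.N) :=
  ⟨fun q q' => q' = some (B.val q * B.μ a) ∨ q' = none ∧ B.val q * B.μ a ∈ B.F⟩

/-- Transitions on a word. -/
def trans (w : List α) : Rel (Option B.N) := ev B.step w

/-- The language whose star the automaton recognises. -/
def lang : Language α := {w | ev B.μ w ∈ B.F}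

lemma trans_cons (a : α) (w : List α) : B.trans (a :: w) = B.step a * B.trans w := ev_cons _ _ _

lemma trans_append (u v : List α) : B.trans (u ++ v) = B.trans u * B.trans v := ev_append _ _ _

/-- Paths ending in a block: either no cut, or the first cut splits off a nonempty word. -/
theorem trans_iff : ∀ (w : List α) (q q' : Option B.N), (B.trans w).rel q q' ↔
    (w = [] ∧ q' = q) ∨ (w ≠ [] ∧ q' = some (B.val q * ev B.μ w)) ∨
      ∃ u v, u ≠ [] ∧ w = u ++ v ∧ B.val q * ev B.μ u ∈ B.F ∧ (B.trans v).rel none q'
  | [], q, q' => by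
    constructor
    · intro h
      exact Or.inl ⟨rfl, Eq.symm h⟩
    · rintro (⟨-, rfl⟩ | ⟨h, -⟩ | ⟨u, v, hu, hw, -⟩)
      · rfl
      · exact absurd rfl h
      · exact absurd (List.append_eq_nil_iff.mp hw.symm).1 hu
  | a :: w, q, q' => by
    rw [trans_cons, Rel.mul_rel]
    constructor
    · rintro ⟨r, h1, h2⟩
      rcases h1 with rfl | ⟨rfl, hF⟩
      · rcases (trans_iff w _ q').mp h2 with ⟨rfl, rfl⟩ | ⟨-, rfl⟩ | ⟨u, v, -, rfl, hF, hv⟩
        · exact Or.inr (Or.inl ⟨List.cons_ne_nil _ _, by simp⟩)
        · exact Or.inr (Or.inl ⟨List.cons_ne_nil _ _, by simp [val, mul_assoc]⟩)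
        · exact Or.inr (Or.inr ⟨a :: u, v, List.cons_ne_nil _ _, rfl,
            by simpa [val, mul_assoc] using hF, hv⟩)
      · exact Or.inr (Or.inr ⟨[a], w, List.cons_ne_nil _ _, rfl, by simpa using hF, h2⟩)
    · rintro (⟨h, -⟩ | ⟨-, rfl⟩ | ⟨u, v, hu, hw, hF, hv⟩)
      · exact absurd h (List.cons_ne_nil _ _)
      · refine ⟨_, Or.inl rfl, (trans_iff w _ _).mpr ?_⟩
        rcases eq_or_ne w [] with rfl | hw
        · exact Or.inl ⟨rfl, by simp⟩
        · exact Or.inr (Or.inl ⟨hw, by simp [val, mul_assoc]⟩)
      · obtain ⟨b, u, rfl⟩ := List.exists_cons_of_ne_nil hu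
        obtain ⟨rfl, rfl⟩ : b = a ∧ w = u ++ v := by simpa using (List.cons.injEq _ _ _ _).mp hw.symm |>.imp id Eq.symm
        rcases eq_or_ne u [] with rfl | hu'
        · exact ⟨none, Or.inr ⟨rfl, by simpa using hF⟩, hv⟩
        · exact ⟨_, Or.inl rfl, (trans_iff _ _ _).mpr (Or.inr (Or.inr
            ⟨u, v, hu', rfl, by simpa [val, mul_assoc] using hF, hv⟩))⟩

/-- The automaton recognises the star. -/
theorem trans_none_none (w : List α) :
    (B.trans w).rel none none ↔ w ∈ KStar.kstar B.lang := by
  induction h : w.length using Nat.strong_induction_on generalizing w with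
  | _ n ih =>
    subst h
    rw [trans_iff]
    constructor
    · rintro (⟨rfl, -⟩ | ⟨-, h⟩ | ⟨u, v, hu, rfl, hF, hv⟩)
      · exact Language.nil_mem_kstar _
      · exact absurd h (by simp)
      · have hlen : v.length < (u ++ v).length := by
          have := List.length_pos_of_ne_nil hu
          simp; omega
        obtain ⟨L, rfl, hL⟩ := Language.mem_kstar.mp ((ih _ hlen v rfl).mp hv)
        exact Language.join_mem_kstar (L := u :: L) fun t ht => by
          rcases List.mem_cons.mp ht with rfl | ht
          · exact show ev B.μ t ∈ B.F by simpa [val] using hF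
          · exact hL t ht
    · intro h
      obtain ⟨L, rfl, hL⟩ := Language.mem_kstar_iff_exists_nonempty.mp h
      cases L with
      | nil => exact Or.inl ⟨rfl, rfl⟩
      | cons u L =>
        obtain ⟨hu, hu0⟩ := hL u (by simp)
        have hlen : L.flatten.length < (u :: L).flatten.length := by
          have := List.length_pos_of_ne_nil hu0
          simp; omega
        refine Or.inr (Or.inr ⟨u, L.flatten, hu0, rfl,
          show B.val none * ev B.μ u ∈ B.F by rw [show B.val none = 1 from rfl, one_mul]; exact hu,
          (ih _ hlen _ rfl).mpr (Language.join_mem_kstar fun t ht => (hL t (by simp [ht])).1)⟩)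

end Block

end Vale.Agent.P329.Height2
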