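import Vale.Agent.P329.Height2.Sep

/-!
P329: if a marked segment language has height at most one then its group is a quotient of a local
group of the transition monoid of one block automaton.
-/

namespace Vale.Agent.P329.Height2

open scoped commutatorElement

variable {β G : Type} [Group G] (g : List β → G)

/-- The data produced by a marked segment language of height at most one. -/
structure Front : Type 1 where
  /-- The block automaton. -/
  B : Block (β ⊕ Unit)
  /-- A word whose image is the identity of the local group. -/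
  u : List (β ⊕ Unit)
  delim : Delim u
  idem : B.trans u * B.trans u = B.trans u
  inv : ∀ z, ∃ z', B.trans u * B.trans (z ++ u ++ z') * B.trans u = B.trans u
  welldef : ∀ z z', B.trans u * B.trans z * B.trans u = B.trans u * B.trans z' * B.trans u →
    segVal g (u ++ z ++ u) = segVal g (u ++ z' ++ u)
  val_one : segVal g u = 1

variable {g}

section Local

variable {M : Type} [Monoid M] (μ : β ⊕ Unit → M) (u : List (β ⊕ Unit))

/-- The local monoid at the image of a word. -/
def Local : Type := {m : M // ∃ z, ev μ u * ev μ z * ev μ u = m}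

variable {μ u} (hu : ev μ u * ev μ u = ev μ u)

include hu in
lemma idem_mul (x : M) : ev μ u * (ev μ u * x) = ev μ u * x := by rw [← mul_assoc, hu]

include hu in
lemma local_mul (a b : Local μ u) : ∃ z, ev μ u * ev μ z * ev μ u = a.1 * b.1 := by
  obtain ⟨_, x, rfl⟩ := a
  obtain ⟨_, y, rfl⟩ := b
  exact ⟨x ++ u ++ y, by simp only [ev_append, mul_assoc, idem_mul hu]⟩

/-- The local monoid is a group when every element has a one-sided inverse. -/
@[reducible] noncomputable def localGroup
    (hinv : ∀ z, ∃ z', ev μ u * ev μ (z ++ u ++ z') * ev μ u = ev μ u) : Group (Local μ u) :=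
  letI : Mul (Local μ u) := ⟨fun a b => ⟨a.1 * b.1, local_mul hu a b⟩⟩
  letI : One (Local μ u) := ⟨⟨ev μ u, [], by simp [hu]⟩⟩
  letI : Inv (Local μ u) := ⟨fun a => ⟨ev μ u * ev μ (hinv a.2.choose).choose * ev μ u, _, rfl⟩⟩
  Group.ofRightAxioms
    (fun a b c => Subtype.ext (mul_assoc a.1 b.1 c.1))
    (fun a => Subtype.ext (show a.1 * ev μ u = a.1 by
      obtain ⟨_, z, rfl⟩ := a
      show _ * ev μ u = _
      rw [mul_assoc, hu]))
    (fun a => Subtype.ext (show a.1 * _ = ev μ u by
      have h := (hinv a.2.choose).choose_spec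
      show a.1 * (ev μ u * ev μ (hinv a.2.choose).choose * ev μ u) = ev μ u
      conv_lhs => arg 1; rw [← a.2.choose_spec]
      refine Eq.trans ?_ h
      simp only [ev_append, mul_assoc, idem_mul hu]))

end Local

/-- **Front end.** A marked segment language of height at most one over a simple non-abelian
group lives in a single block automaton. -/
theorem front_end [Finite β] [IsSimpleGroup G] (hG : ∃ a b : G, a * b ≠ b * a) (h1 : g [] = 1)
    (hgen : Submonoid.closure (Set.range g) = ⊤) (hL : HeightLE 1 (sepLang g)) :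
    Nonempty (Front g) := by
  classical
  obtain ⟨C⟩ := control_of_heightLE hL
  obtain ⟨u, hu, he, hinv⟩ := exists_local_group C.μ
  let grp : Group (Local C.μ u) := localGroup he hinv
  have wd : ∀ z z', ev C.μ u * ev C.μ z * ev C.μ u = ev C.μ u * ev C.μ z' * ev C.μ u →
      segVal g (u ++ z ++ u) = segVal g (u ++ z' ++ u) := fun z z' h =>
    segVal_eq_of_recog h1 hgen C.recog (delim_append hu z hu) (delim_append hu z' hu)
      (by simp only [ev_append]; exact h)
  have hsq : segVal g (u ++ u) = segVal g u := segVal_eq_of_recog h1 hgen C.recog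
    (hu.append hu) hu (by rw [ev_append]; exact he)
  have hu1 : segVal g u = 1 := by
    rw [segVal_append hu] at hsq
    exact mul_eq_left.mp hsq
  let ψ : Local C.μ u →* G := MonoidHom.mk' (fun a => segVal g (u ++ a.2.choose ++ u)) fun a b => by
    show segVal g (u ++ (a * b).2.choose ++ u) = _
    rw [wd _ (a.2.choose ++ u ++ b.2.choose) ((a * b).2.choose_spec.trans ?_)]
    · rw [show u ++ (a.2.choose ++ u ++ b.2.choose) ++ u =
        (u ++ a.2.choose ++ u) ++ (b.2.choose ++ u) by simp [List.append_assoc],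
        segVal_append (delim_append hu _ hu)]
      congr 1
      rw [List.append_assoc u, segVal_append hu (b.2.choose ++ u), hu1, one_mul]
    · show a.1 * b.1 = _
      conv_lhs => rw [← a.2.choose_spec, ← b.2.choose_spec]
      simp only [ev_append, mul_assoc, idem_mul he]
  let mk : List (β ⊕ Unit) → Local C.μ u := fun z => ⟨_, z, rfl⟩
  have ψmk : ∀ z, ψ (mk z) = segVal g (u ++ z ++ u) := fun z => wd _ _ (mk z).2.choose_spec
  have ψsurj : Function.Surjective ψ := fun c => by
    obtain ⟨z, hz, rfl⟩ := exists_delim_segVal h1 hgen c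
    refine ⟨mk z, ?_⟩
    rw [ψmk, List.append_assoc, segVal_append hu, segVal_append hz, hu1, one_mul, mul_one]
  have hone : (1 : Local C.μ u).1 = ev C.μ u := rfl
  have hmul : ∀ a b : Local C.μ u, (a * b).1 = a.1 * b.1 := fun _ _ => rfl
  let N : C.ι → Subgroup (Local C.μ u) := fun i =>
    { carrier := {a | C.π a.1 i = C.π (ev C.μ u) i}
      mul_mem' := fun {a b} ha hb => by
        simp only [Set.mem_ofPred_eq] at ha hb ⊢
        rw [hmul, map_mul, Pi.mul_apply, ha, hb, ← Pi.mul_apply, ← map_mul, he]
      one_mem' := rfl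
      inv_mem' := fun {a} ha => by
        simp only [Set.mem_ofPred_eq] at ha ⊢
        have : C.π (a⁻¹ * a).1 i = C.π (a⁻¹ * 1).1 i := by
          rw [hmul, hmul, map_mul, map_mul, Pi.mul_apply, Pi.mul_apply, ha, hone]
        rwa [inv_mul_cancel, mul_one, hone, eq_comm] at this }
  have hN : ∀ i, (N i).Normal := fun i => ⟨fun n (hn : C.π n.1 i = _) a => by
    show C.π (a * n * a⁻¹).1 i = _
    have h2 : C.π (a * n * a⁻¹).1 i = C.π (a * 1 * a⁻¹).1 i := by
      simp only [hmul, map_mul, Pi.mul_apply, hn, hone]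
    rw [h2, mul_one, mul_inv_cancel, hone]⟩
  obtain ⟨i, hi⟩ : ∃ i, (N i).map ψ = ⊥ := by
    by_contra hcon
    push Not at hcon
    have htop : ∀ i, (N i).map ψ = ⊤ := fun i =>
      (((hN i).map ψ ψsurj).eq_bot_or_eq_top).resolve_left (hcon i)
    have hperf : ⁅(⊤ : Subgroup G), (⊤ : Subgroup G)⁆ = ⊤ := by
      refine ((Subgroup.commutator_normal (⊤ : Subgroup G) ⊤).eq_bot_or_eq_top).resolve_left ?_
      intro h
      obtain ⟨a, b, hab⟩ := hG
      have hc : ⁅a, b⁆ ∈ (⊥ : Subgroup G) :=
        h ▸ Subgroup.commutator_mem_commutator (Subgroup.mem_top a) (Subgroup.mem_top b)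
      exact hab (commutatorElement_eq_one_iff_mul_comm.mp (Subgroup.mem_bot.mp hc))
    have hall : ∀ s : Finset C.ι, (⨅ i ∈ s, N i).Normal ∧ (⨅ i ∈ s, N i).map ψ = ⊤ := by
      intro s
      induction s using Finset.induction with
      | empty =>
        simp only [Finset.notMem_empty, iInf_false, iInf_top]
        exact ⟨inferInstance, by rw [← MonoidHom.range_eq_map, MonoidHom.range_eq_top]; exact ψsurj⟩
      | insert a s ha ih =>
        rw [Finset.iInf_insert]
        have := ih.1
        have := hN a
        refine ⟨inferInstance, top_le_iff.mp ?_⟩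
        rw [← hperf]
        calc ⁅(⊤ : Subgroup G), ⊤⁆ = ⁅(N a).map ψ, (⨅ i ∈ s, N i).map ψ⁆ := by rw [htop, ih.2]
          _ = (⁅N a, ⨅ i ∈ s, N i⁆).map ψ := (Subgroup.map_commutator _ _ ψ).symm
          _ ≤ _ := Subgroup.map_mono (Subgroup.commutator_le_inf _ _)
    have := Fintype.ofFinite C.ι
    obtain ⟨a, b, hab⟩ := hG
    obtain ⟨x, hx, hxa⟩ : a ∈ (⨅ i ∈ (Finset.univ : Finset C.ι), N i).map ψ := by
      rw [(hall _).2]; exact Subgroup.mem_top a
    have hx1 : x = 1 := by
      refine Subtype.ext (C.inj (ev C.μ u) x.1 (x⁻¹).1 he ?_ ?_ ?_ (funext fun i => ?_))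
      · exact congrArg Subtype.val (one_mul x)
      · exact congrArg Subtype.val (mul_one x)
      · exact congrArg Subtype.val (mul_inv_cancel x)
      · exact (iInf₂_le i (Finset.mem_univ i) : (⨅ j ∈ Finset.univ, N j) ≤ N i) hx
    rw [hx1, map_one] at hxa
    exact hab (by rw [← hxa, one_mul, mul_one])
  have he' : ∀ z, C.π (mk z).1 i = (C.B i).trans u * (C.B i).trans z * (C.B i).trans u := fun z => by
    simp only [mk, map_mul, Pi.mul_apply, C.π_ev]
  refine ⟨{ B := C.B i, u := u, delim := hu, val_one := hu1, idem := ?_, inv := ?_, welldef := ?_ }⟩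
  · rw [← C.π_ev, ← Pi.mul_apply, ← map_mul, he]
  · intro z
    obtain ⟨z', hz'⟩ := hinv z
    refine ⟨z', ?_⟩
    have := congrFun (congrArg C.π hz') i
    simpa only [map_mul, Pi.mul_apply, C.π_ev] using this
  · intro z z' h
    rw [← ψmk, ← ψmk]
    have hd : ψ ((mk z')⁻¹ * mk z) = 1 := by
      have hmem : (mk z')⁻¹ * mk z ∈ N i := by
        show C.π ((mk z')⁻¹ * mk z).1 i = _
        rw [hmul, map_mul, Pi.mul_apply, he', h, ← he', ← Pi.mul_apply, ← map_mul, ← hmul,
          inv_mul_cancel, hone]
      have := Subgroup.mem_map_of_mem ψ hmem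
      rwa [hi, Subgroup.mem_bot] at this
    rw [map_mul, map_inv, inv_mul_eq_one] at hd
    exact hd.symm

end Vale.Agent.P329.Height2
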