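import Vale.Agent.P329.Height2.Rel

/-!
P329: the Schützenberger product of two monoids; its subgroups embed in the product.
-/

namespace Vale.Agent.P329.Height2

open Set

/-- The Schützenberger product of two monoids. -/
@[ext]
structure Sch (M N : Type) : Type where
  /-- Left component. -/
  l : M
  /-- The set of factorisations. -/
  s : Set (M × N)
  /-- Right component. -/
  r : N

namespace Sch

variable {M N : Type} [Monoid M] [Monoid N]

instance : One (Sch M N) := ⟨⟨1, ∅, 1⟩⟩

instance : Mul (Sch M N) :=
  ⟨fun x y => ⟨x.l * y.l,
    (fun p => (x.l * p.1, p.2)) '' y.s ∪ (fun p => (p.1, p.2 * y.r)) '' x.s, x.r * y.r⟩⟩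

lemma mul_l (x y : Sch M N) : (x * y).l = x.l * y.l := rfl

lemma mul_r (x y : Sch M N) : (x * y).r = x.r * y.r := rfl

lemma mul_s (x y : Sch M N) : (x * y).s =
    (fun p => (x.l * p.1, p.2)) '' y.s ∪ (fun p => (p.1, p.2 * y.r)) '' x.s := rfl

instance : Monoid (Sch M N) where
  mul_assoc x y z := by
    ext : 1
    · exact mul_assoc _ _ _
    · simp only [mul_s, mul_l, mul_r, image_union, image_image, mul_assoc, union_assoc]
    · exact mul_assoc _ _ _
  one_mul x := by
    ext : 1
    · exact one_mul _
    · simp [mul_s, show (1 : Sch M N).l = 1 from rfl, show (1 : Sch M N).s = ∅ from rfl]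
    · exact one_mul _
  mul_one x := by
    ext : 1
    · exact mul_one _
    · simp [mul_s, show (1 : Sch M N).r = 1 from rfl, show (1 : Sch M N).s = ∅ from rfl]
    · exact mul_one _

instance [Finite M] [Finite N] : Finite (Sch M N) :=
  Finite.of_injective (fun x : Sch M N => (x.l, x.s, x.r)) fun _ _ h => by
    simp only [Prod.mk.injEq] at h; exact Sch.ext h.1 h.2.1 h.2.2

/-- The projection to the product of the two monoids. -/
def proj : Sch M N →* M × N where
  toFun x := (x.l, x.r)
  map_one' := rfl
  map_mul' _ _ := rfl

@[simp] lemma proj_apply (x : Sch M N) : proj x = (x.l, x.r) := rfl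

/-- The projection is injective on subgroups. -/
theorem groupInj_proj : GroupInj (proj (M := M) (N := N)) := by
  intro e x y he hex hxe hxy h
  simp only [proj_apply, Prod.mk.injEq] at h
  obtain ⟨hl, hr⟩ := h
  have el : e.l * e.l = e.l := congrArg Sch.l he
  have er : e.r * e.r = e.r := congrArg Sch.r he
  have key : x * x * x * x = x * x * x := by
    ext : 1
    · simp only [mul_l, hl, el]
    · simp only [mul_s, mul_l, mul_r, hl, hr, el, er, image_union, image_image, ← mul_assoc]
      simp only [mul_assoc, el, er]
      ext p
      simp only [mem_union, mem_image]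
      simp only [or_self_left]
    · simp only [mul_r, hr, er]
  have h1 : x * x * x = x * x := by
    have := congrArg (· * y) key
    simpa [mul_assoc, hxy, hxe] using this
  have h2 : x * x = x := by
    have := congrArg (· * y) h1
    simpa [mul_assoc, hxy, hxe] using this
  have h3 := congrArg (· * y) h2
  simpa [mul_assoc, hxy, hxe] using h3

end Sch

end Vale.Agent.P329.Height2
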