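import Vale.Agent.P329.Height2.Block
import Vale.Agent.P329.Height2.Schutz

/-!
P329: languages of generalized star height at most one are recognised by finite monoids whose
groups embed in products of transition monoids of block automata.
-/

namespace Vale.Agent.P329.Height2

variable {α : Type}

/-- A recognising monoid whose groups are controlled by finitely many block automata. -/
structure Control (α : Type) (L : Language α) : Type 1 where
  /-- The monoid. -/
  M : Type
  [monoid : Monoid M]
  [finite : Finite M]
  /-- Images of the letters. -/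
  μ : α → M
  /-- The accepted elements. -/
  S : Set M
  recog : ∀ w, w ∈ L ↔ ev μ w ∈ S
  /-- The index set of the automata. -/
  ι : Type
  [finiteι : Finite ι]
  /-- The automata. -/
  B : ι → Block α
  /-- The map to their transition monoids. -/
  π : M →* ((i : ι) → Rel (Option (B i).N))
  π_μ : ∀ a i, π (μ a) i = (B i).step a
  inj : GroupInj π

attribute [instance] Control.monoid Control.finite Control.finiteι

namespace Control

/-- The words along the map to the transition monoids. -/
lemma π_ev {L : Language α} (C : Control α L) (w : List α) (i : C.ι) :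
    C.π (ev C.μ w) i = (C.B i).trans w := by
  induction w with
  | nil => simp [Block.trans]
  | cons a w ih => rw [ev_cons, map_mul, Pi.mul_apply, C.π_μ, ih, Block.trans_cons]

/-- Without automata the monoid has no nontrivial group. -/
lemma groupFree {L : Language α} (C : Control α L) [IsEmpty C.ι] : GroupFree C.M :=
  fun e x y he hex hxe hxy => C.inj e x y he hex hxe hxy (funext fun i => isEmptyElim i)

/-- A change of monoid with trivial automata. -/
def ofGroupFree {L : Language α} {M : Type} [Monoid M] [Finite M] (hM : GroupFree M) (μ : α → M)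
    (S : Set M) (h : ∀ w, w ∈ L ↔ ev μ w ∈ S) : Control α L where
  M := M
  μ := μ
  S := S
  recog := h
  ι := Empty
  B := isEmptyElim
  π := 1
  π_μ _ i := isEmptyElim i
  inj e x y he hex hxe hxy _ := hM e x y he hex hxe hxy

/-- The same monoid for the complement. -/
def compl {L : Language α} (C : Control α L) : Control α {w | w ∉ L} :=
  { C with
    S := C.Sᶜ
    recog := fun w => not_congr (C.recog w) }

/-- Two control monoids for one product automaton family. -/
def prodMap {L L' : Language α} (C : Control α L) (C' : Control α L') :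
    C.M × C'.M →* ((i : C.ι ⊕ C'.ι) → Rel (Option (Sum.elim C.B C'.B i).N)) where
  toFun x i :=
    match i with
    | .inl i => C.π x.1 i
    | .inr i => C'.π x.2 i
  map_one' := by funext i; cases i <;> simp <;> rfl
  map_mul' x y := by funext i; cases i <;> simp <;> rfl

lemma groupInj_prodMap {L L' : Language α} (C : Control α L) (C' : Control α L') :
    GroupInj (C.prodMap C') := by
  intro e x y he hex hxe hxy h
  refine Prod.ext ?_ ?_
  · exact C.inj e.1 x.1 y.1 (congrArg Prod.fst he) (congrArg Prod.fst hex)
      (congrArg Prod.fst hxe) (congrArg Prod.fst hxy) (funext fun i => congrFun h (Sum.inl i))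
  · exact C'.inj e.2 x.2 y.2 (congrArg Prod.snd he) (congrArg Prod.snd hex)
      (congrArg Prod.snd hxe) (congrArg Prod.snd hxy) (funext fun i => congrFun h (Sum.inr i))

lemma ev_prod {L L' : Language α} (C : Control α L) (C' : Control α L') (w : List α) :
    ev (fun a => (C.μ a, C'.μ a)) w = (ev C.μ w, ev C'.μ w) := by
  induction w with
  | nil => rfl
  | cons a w ih => simp [ih]

/-- Union. -/
def union {L L' : Language α} (C : Control α L) (C' : Control α L') : Control α (L + L') where
  M := C.M × C'.M
  μ a := (C.μ a, C'.μ a)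
  S := {x | x.1 ∈ C.S ∨ x.2 ∈ C'.S}
  recog w := by
    rw [ev_prod]
    exact or_congr (C.recog w) (C'.recog w)
  ι := C.ι ⊕ C'.ι
  B := Sum.elim C.B C'.B
  π := C.prodMap C'
  π_μ a i := by cases i <;> exact π_μ _ a _
  inj := C.groupInj_prodMap C'

/-- The images of the letters in the Schützenberger product. -/
def schGen {L L' : Language α} (C : Control α L) (C' : Control α L') (a : α) : Sch C.M C'.M :=
  ⟨C.μ a, {(C.μ a, 1), (1, C'.μ a)}, C'.μ a⟩

lemma ev_schGen {L L' : Language α} (C : Control α L) (C' : Control α L') :
    ∀ w : List α, (ev (C.schGen C') w).l = ev C.μ w ∧ (ev (C.schGen C') w).r = ev C'.μ w ∧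
      (ev (C.schGen C') w).s = {p | w ≠ [] ∧ ∃ u v, u ++ v = w ∧ p = (ev C.μ u, ev C'.μ v)}
  | [] => ⟨rfl, rfl, by ext p; simp [show (1 : Sch C.M C'.M).s = ∅ from rfl]⟩
  | a :: w => by
    obtain ⟨h1, h2, h3⟩ := ev_schGen C C' w
    refine ⟨by simp [Sch.mul_l, schGen, h1], by simp [Sch.mul_r, schGen, h2], ?_⟩
    ext p
    rw [ev_cons, Sch.mul_s, h2, h3]
    simp only [schGen, Set.mem_union, Set.mem_image, Set.mem_ofPred_eq, Set.mem_insert_iff,
      Set.mem_singleton_iff]
    constructor
    · rintro (⟨q, ⟨-, u, v, rfl, rfl⟩, rfl⟩ | ⟨q, rfl | rfl, rfl⟩)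
      · exact ⟨List.cons_ne_nil _ _, a :: u, v, rfl, by simp⟩
      · exact ⟨List.cons_ne_nil _ _, [a], w, rfl, by simp⟩
      · exact ⟨List.cons_ne_nil _ _, [], a :: w, rfl, by simp⟩
    · rintro ⟨-, u, v, huv, rfl⟩
      rcases List.append_eq_cons_iff.mp huv with ⟨rfl, rfl⟩ | ⟨u', rfl, rfl⟩
      · exact Or.inr ⟨_, Or.inr rfl, by simp⟩
      · by_cases hw : u' ++ v = []
        · obtain ⟨rfl, rfl⟩ := List.append_eq_nil_iff.mp hw
          exact Or.inr ⟨_, Or.inl rfl, by simp⟩
        · exact Or.inl ⟨_, ⟨hw, u', v, rfl, rfl⟩, by simp⟩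

/-- Concatenation. -/
noncomputable def concat {L L' : Language α} (C : Control α L) (C' : Control α L') :
    Control α (L * L') where
  M := Sch C.M C'.M
  μ := C.schGen C'
  S := {x | (∃ p ∈ x.s, p.1 ∈ C.S ∧ p.2 ∈ C'.S) ∨ (x.s = ∅ ∧ 1 ∈ C.S ∧ 1 ∈ C'.S)}
  recog w := by
    simp only [Set.mem_ofPred_eq, (ev_schGen C C' w).2.2, Language.mem_mul, C.recog, C'.recog]
    constructor
    · rintro ⟨u, hu, v, hv, rfl⟩
      by_cases h : u ++ v = []
      · obtain ⟨rfl, rfl⟩ := List.append_eq_nil_iff.mp h
        exact Or.inr ⟨by ext p; simp, hu, hv⟩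
      · exact Or.inl ⟨_, ⟨h, u, v, rfl, rfl⟩, hu, hv⟩
    · rintro (⟨p, ⟨-, u, v, rfl, rfl⟩, hu, hv⟩ | ⟨h, hu, hv⟩)
      · exact ⟨u, hu, v, hv, rfl⟩
      · rcases eq_or_ne w [] with rfl | hw
        · exact ⟨[], hu, [], hv, rfl⟩
        · exact absurd h (Set.nonempty_iff_ne_empty.mp ⟨_, hw, [], w, rfl, rfl⟩)
  ι := C.ι ⊕ C'.ι
  B := Sum.elim C.B C'.B
  π := (C.prodMap C').comp Sch.proj
  π_μ a i := by cases i <;> exact π_μ _ a _
  inj := (C.groupInj_prodMap C').comp Sch.groupInj_proj

/-- The star of a language recognised by a monoid without groups. -/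
noncomputable def star {L : Language α} (C : Control α L) [IsEmpty C.ι] :
    Control α (KStar.kstar L) :=
  let B : Block α := { N := C.M, μ := C.μ, F := C.S, groupFree := C.groupFree }
  { M := Rel (Option B.N)
    μ := B.step
    S := {x | x.rel none none}
    recog := fun w => by
      show w ∈ KStar.kstar L ↔ (B.trans w).rel none none
      rw [B.trans_none_none, show B.lang = L from Language.ext fun w => (C.recog w).symm]
    ι := Unit
    B := fun _ => B
    π := MonoidHom.mk (OneHom.mk (fun (x : Rel (Option B.N)) (_ : Unit) => x) rfl) fun _ _ => rfl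
    π_μ := fun _ _ => rfl
    inj := fun _ _ _ _ _ _ _ h => congrFun h () }

end Control

/-- A finite monoid without groups that detects the first letter. -/
inductive First (α : Type) : Type where
  | nil
  | single (a : α)
  | long

namespace First

instance : One (First α) := ⟨.nil⟩

instance : Mul (First α) :=
  ⟨fun
    | .nil, y => y
    | x, .nil => x
    | _, _ => .long⟩

instance : Monoid (First α) where
  one_mul x := by cases x <;> rfl
  mul_one x := by cases x <;> rfl
  mul_assoc x y z := by cases x <;> cases y <;> cases z <;> rfl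

instance [Finite α] : Finite (First α) :=
  Finite.of_injective (β := Option (Option α)) (fun
    | .nil => none
    | .long => some none
    | .single a => some (some a)) fun x y h => by cases x <;> cases y <;> simp_all

lemma nil_mul (y : First α) : nil * y = y := by cases y <;> rfl

lemma mul_nil (x : First α) : x * nil = x := by cases x <;> rfl

lemma single_mul_single (a b : α) : single a * single b = long := rfl

lemma long_mul (y : First α) : long * y = long := by cases y <;> rfl

lemma mul_long (x : First α) : x * long = long := by cases x <;> rfl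

lemma groupFree : GroupFree (First α) := by
  intro e x y he hex hxe hxy
  cases e <;> cases x <;> cases y <;>
    simp_all [nil_mul, mul_nil, single_mul_single, long_mul, mul_long]

lemma ev_eq_long (w : List α) : ∀ a b, ev First.single (a :: b :: w) = long := by
  induction w with
  | nil => intros; rfl
  | cons c w ih => intro a b; rw [ev_cons, ih]; rfl

lemma ev_eq_nil_iff (w : List α) : ev First.single w = 1 ↔ w = [] := by
  match w with
  | [] => simp
  | [a] => exact iff_of_false (by simp [show (1 : First α) = nil from rfl]) (by simp)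
  | a :: b :: w => exact iff_of_false (by rw [ev_eq_long]; exact fun h => nomatch h) (by simp)

lemma ev_eq_single_iff (w : List α) (c : α) : ev First.single w = single c ↔ w = [c] := by
  match w with
  | [] => exact iff_of_false (fun h => nomatch h) (by simp)
  | [a] => simp
  | a :: b :: w => exact iff_of_false (by rw [ev_eq_long]; exact fun h => nomatch h) (by simp)

end First

/-- Height zero languages have control monoids without automata; height one ones have control
monoids. -/
theorem exists_control [Finite α] : ∀ e : GenExp α,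
    (e.height = 0 → ∃ C : Control α e.lang, IsEmpty C.ι) ∧
      (e.height ≤ 1 → Nonempty (Control α e.lang))
  | .zero => ⟨fun _ => ⟨.ofGroupFree First.groupFree First.single ∅ fun _ =>
      iff_of_false (Language.notMem_zero _) (Set.notMem_empty _), ⟨fun i => i.elim⟩⟩,
      fun _ => ⟨.ofGroupFree First.groupFree First.single ∅ fun _ =>
      iff_of_false (Language.notMem_zero _) (Set.notMem_empty _)⟩⟩
  | .one => by
    have C : ∃ C : Control α (GenExp.one (α := α)).lang, IsEmpty C.ι :=
      ⟨.ofGroupFree First.groupFree First.single {1} fun w => by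
        show w = [] ↔ ev First.single w = 1
        rw [First.ev_eq_nil_iff], ⟨fun i => i.elim⟩⟩
    exact ⟨fun _ => C, fun _ => ⟨C.choose⟩⟩
  | .letter a => by
    have C : ∃ C : Control α (GenExp.letter a).lang, IsEmpty C.ι :=
      ⟨.ofGroupFree First.groupFree First.single {.single a} fun w => by
        show w = [a] ↔ ev First.single w = .single a
        rw [First.ev_eq_single_iff], ⟨fun i => i.elim⟩⟩
    exact ⟨fun _ => C, fun _ => ⟨C.choose⟩⟩
  | .union P Q => by
    obtain ⟨hP0, hP1⟩ := exists_control P
    obtain ⟨hQ0, hQ1⟩ := exists_control Q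
    refine ⟨fun h => ?_, fun h => ?_⟩
    · obtain ⟨C, hC⟩ := hP0 (by simp only [GenExp.height] at h; omega)
      obtain ⟨C', hC'⟩ := hQ0 (by simp only [GenExp.height] at h; omega)
      exact ⟨C.union C', inferInstanceAs (IsEmpty (C.ι ⊕ C'.ι))⟩
    · simp only [GenExp.height] at h
      exact ⟨(hP1 (by omega)).some.union (hQ1 (by omega)).some⟩
  | .concat P Q => by
    obtain ⟨hP0, hP1⟩ := exists_control P
    obtain ⟨hQ0, hQ1⟩ := exists_control Q
    refine ⟨fun h => ?_, fun h => ?_⟩
    · obtain ⟨C, hC⟩ := hP0 (by simp only [GenExp.height] at h; omega)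
      obtain ⟨C', hC'⟩ := hQ0 (by simp only [GenExp.height] at h; omega)
      exact ⟨C.concat C', inferInstanceAs (IsEmpty (C.ι ⊕ C'.ι))⟩
    · simp only [GenExp.height] at h
      exact ⟨(hP1 (by omega)).some.concat (hQ1 (by omega)).some⟩
  | .compl P => by
    obtain ⟨hP0, hP1⟩ := exists_control P
    refine ⟨fun h => ?_, fun h => ⟨(hP1 h).some.compl⟩⟩
    obtain ⟨C, hC⟩ := hP0 h
    exact ⟨C.compl, hC⟩
  | .star P => by
    refine ⟨fun h => absurd h (Nat.succ_ne_zero _), fun h => ?_⟩
    obtain ⟨C, hC⟩ := (exists_control P).1 (by simp only [GenExp.height] at h; omega)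
    exact ⟨C.star⟩

/-- Every language of height at most one has a control monoid. -/
theorem control_of_heightLE [Finite α] {L : Language α} (h : HeightLE 1 L) :
    Nonempty (Control α L) := by
  obtain ⟨e, he, rfl⟩ := h
  exact (exists_control e).2 he

/-- A star-free language is recognised by a finite monoid without groups. -/
theorem control_of_starFree [Finite α] {L : Language α} (h : HeightLE 0 L) :
    ∃ C : Control α L, GroupFree C.M := by
  obtain ⟨e, he, rfl⟩ := h
  obtain ⟨C, hC⟩ := (exists_control e).1 (Nat.le_zero.mp he)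
  exact ⟨C, C.groupFree⟩

end Vale.Agent.P329.Height2
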