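import Mathlib

/-!
P329: relations on a finite set as a monoid, products of generators along words, and finite
monoids without nontrivial groups.
-/

namespace Vale.Agent.P329.Height2

/-- A binary relation on a type, as an element of the monoid of relations. -/
@[ext]
structure Rel (Q : Type) : Type where
  /-- The underlying relation. -/
  rel : Q → Q → Prop

namespace Rel

variable {Q : Type}

instance : One (Rel Q) := ⟨⟨fun p q => p = q⟩⟩

instance : Mul (Rel Q) := ⟨fun x y => ⟨fun p q => ∃ r, x.rel p r ∧ y.rel r q⟩⟩

lemma one_rel (p q : Q) : (1 : Rel Q).rel p q ↔ p = q := Iff.rfl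

lemma mul_rel (x y : Rel Q) (p q : Q) :
    (x * y).rel p q ↔ ∃ r, x.rel p r ∧ y.rel r q := Iff.rfl

instance : Monoid (Rel Q) where
  mul_assoc x y z := by
    ext p q
    simp only [mul_rel]
    constructor
    · rintro ⟨r, ⟨s, h1, h2⟩, h3⟩
      exact ⟨s, h1, r, h2, h3⟩
    · rintro ⟨s, h1, r, h2, h3⟩
      exact ⟨r, ⟨s, h1, h2⟩, h3⟩
  one_mul x := by ext p q; simp [mul_rel, one_rel]
  mul_one x := by ext p q; simp [mul_rel, one_rel]

instance [Finite Q] : Finite (Rel Q) :=
  Finite.of_injective Rel.rel fun _ _ h => Rel.ext h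

end Rel

variable {α M : Type} [Monoid M]

/-- The product of the generators along a word. -/
def ev (μ : α → M) (w : List α) : M := (w.map μ).prod

variable (μ : α → M)

@[simp] lemma ev_nil : ev μ [] = 1 := rfl

@[simp] lemma ev_cons (a : α) (w : List α) : ev μ (a :: w) = μ a * ev μ w := List.prod_cons

lemma ev_append (u v : List α) : ev μ (u ++ v) = ev μ u * ev μ v := by
  simp [ev]

lemma map_ev {M' : Type} [Monoid M'] (π : M →* M') (w : List α) :
    π (ev μ w) = ev (fun a => π (μ a)) w := by
  induction w with
  | nil => simp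
  | cons a w ih => simp [ih]

/-- The homomorphism identifies no element of a subgroup with the identity of that subgroup. -/
def GroupInj {M' : Type} [Monoid M'] (π : M →* M') : Prop :=
  ∀ e x y : M, e * e = e → e * x = x → x * e = x → x * y = e → π x = π e → x = e

/-- Every subgroup of the monoid is trivial. -/
def GroupFree (M : Type) [Monoid M] : Prop :=
  ∀ e x y : M, e * e = e → e * x = x → x * e = x → x * y = e → x = e

lemma GroupInj.comp {M' M'' : Type} [Monoid M'] [Monoid M''] {π : M →* M'} {ρ : M' →* M''}
    (hρ : GroupInj ρ) (hπ : GroupInj π) : GroupInj (ρ.comp π) := by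
  intro e x y he hex hxe hxy h
  refine hπ e x y he hex hxe hxy (hρ _ _ (π y) ?_ ?_ ?_ ?_ h) <;> simp [← map_mul, *]

lemma GroupInj.id : GroupInj (MonoidHom.id M) := fun _ _ _ _ _ _ _ h => h

end Vale.Agent.P329.Height2
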