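import Vale.Agent.P329.Height2.Recognize

/-!
P329: marked segment languages, and idempotents with group local monoids.
-/

namespace Vale.Agent.P329.Height2

lemma exists_pow_idem {M : Type} [Monoid M] [Finite M] (x : M) :
    ∃ n : ℕ, 1 ≤ n ∧ x ^ n * x ^ n = x ^ n := by
  obtain ⟨i, j, hij, h⟩ : ∃ i j : ℕ, i < j ∧ x ^ i = x ^ j := by
    obtain ⟨i, j, hne, h⟩ := Finite.exists_ne_map_eq_of_infinite (fun n : ℕ => x ^ n)
    rcases lt_or_gt_of_ne hne with h' | h'
    exacts [⟨i, j, h', h⟩, ⟨j, i, h', h.symm⟩]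
  obtain ⟨d, rfl⟩ : ∃ d, j = i + d := ⟨j - i, by omega⟩
  have hd : 1 ≤ d := by omega
  have per : ∀ m, i ≤ m → ∀ k : ℕ, x ^ (m + k * d) = x ^ m := by
    intro m hm k
    induction k with
    | zero => simp
    | succ k ih =>
      have : x ^ (m + d) = x ^ m := by
        obtain ⟨r, rfl⟩ : ∃ r, m = i + r := ⟨m - i, by omega⟩
        rw [show i + r + d = i + d + r by omega, pow_add, ← h, ← pow_add]
      rw [show m + (k + 1) * d = m + d + k * d by ring, pow_add, this, ← pow_add, ih]
  have hn : i ≤ (i + 1) * d := le_trans (Nat.le_succ i) (Nat.le_mul_of_pos_right _ hd)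
  exact ⟨(i + 1) * d, le_trans hd (Nat.le_mul_of_pos_left _ (Nat.succ_pos i)),
    by rw [← pow_add]; exact per _ hn (i + 1)⟩

variable {β G : Type} [Monoid G] (g : List β → G)

/-- The product of the values of the segments closed by a marker. -/
def valAux : List β → List (β ⊕ Unit) → G
  | _, [] => 1
  | acc, .inl b :: r => valAux (acc ++ [b]) r
  | acc, .inr _ :: r => g acc * valAux [] r

/-- The value of a word. -/
def segVal (w : List (β ⊕ Unit)) : G := valAux g [] w

/-- A word that starts and ends with the marker. -/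
def Delim (w : List (β ⊕ Unit)) : Prop :=
  w.head? = some (.inr ()) ∧ ∃ v, w = v ++ [.inr ()]

/-- The words `#w₁#...#wₖ#` with `g w₁ * ... * g wₖ = 1`. -/
def sepLang : Language (β ⊕ Unit) := {w | Delim w ∧ segVal g w = 1}

variable {g}

lemma valAux_append : ∀ (u : List (β ⊕ Unit)) (acc : List β) (v : List (β ⊕ Unit)),
    valAux g acc (u ++ [.inr ()] ++ v) = valAux g acc (u ++ [.inr ()]) * valAux g [] v
  | [], acc, v => by simp [valAux]
  | .inl b :: u, acc, v => by
    simp only [List.cons_append, valAux]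
    exact valAux_append u _ v
  | .inr x :: u, acc, v => by
    simp only [List.cons_append, valAux, valAux_append u [] v, mul_assoc]

lemma segVal_append {u : List (β ⊕ Unit)} (hu : Delim u) (v : List (β ⊕ Unit)) :
    segVal g (u ++ v) = segVal g u * segVal g v := by
  obtain ⟨-, x, rfl⟩ := hu
  exact valAux_append x [] v

lemma Delim.ne_nil {u : List (β ⊕ Unit)} (hu : Delim u) : u ≠ [] := by
  obtain ⟨-, x, rfl⟩ := hu
  simp

lemma delim_append {u v : List (β ⊕ Unit)} (hu : Delim u) (z : List (β ⊕ Unit)) (hv : Delim v) :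
    Delim (u ++ z ++ v) := by
  refine ⟨?_, ?_⟩
  · rw [List.append_assoc, List.head?_append_of_ne_nil _ hu.ne_nil]
    exact hu.1
  · obtain ⟨-, y, rfl⟩ := hv
    exact ⟨u ++ z ++ y, by simp⟩

lemma Delim.append {u v : List (β ⊕ Unit)} (hu : Delim u) (hv : Delim v) : Delim (u ++ v) := by
  simpa using delim_append hu [] hv

/-- The word `#w#`. -/
def marked (w : List β) : List (β ⊕ Unit) := .inr () :: (w.map .inl ++ [.inr ()])

lemma delim_marked (w : List β) : Delim (marked w) :=
  ⟨rfl, .inr () :: w.map .inl, rfl⟩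

lemma valAux_map : ∀ (w acc : List β) (r : List (β ⊕ Unit)),
    valAux g acc (w.map .inl ++ r) = valAux g (acc ++ w) r
  | [], acc, r => by simp
  | b :: w, acc, r => by simp [valAux, valAux_map w, List.append_assoc]

lemma segVal_marked (h1 : g [] = 1) (w : List β) : segVal g (marked w) = g w := by
  simp [segVal, marked, valAux, valAux_map, h1]

lemma segVal_single (h1 : g [] = 1) : segVal g [.inr ()] = 1 := by simp [segVal, valAux, h1]

lemma exists_delim_segVal (h1 : g [] = 1) (hgen : Submonoid.closure (Set.range g) = ⊤) (c : G) :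
    ∃ z, Delim z ∧ segVal g z = c := by
  have hc : c ∈ Submonoid.closure (Set.range g) := hgen ▸ Submonoid.mem_top c
  induction hc using Submonoid.closure_induction with
  | mem x hx =>
    obtain ⟨w, rfl⟩ := hx
    exact ⟨marked w, delim_marked w, segVal_marked h1 w⟩
  | one => exact ⟨[.inr ()], ⟨rfl, [], rfl⟩, segVal_single h1⟩
  | mul x y _ _ hx hy =>
    obtain ⟨u, hu, rfl⟩ := hx
    obtain ⟨v, hv, rfl⟩ := hy
    exact ⟨u ++ v, hu.append hv, segVal_append hu v⟩

/-- A recognising map of the language determines the value of delimited words. -/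
lemma segVal_eq_of_recog {G' : Type} [Group G'] {g : List β → G'} (h1 : g [] = 1)
    (hgen : Submonoid.closure (Set.range g) = ⊤) {M : Type} [Monoid M]
    {μ : β ⊕ Unit → M} {S : Set M} (hS : ∀ w, w ∈ sepLang g ↔ ev μ w ∈ S)
    {u v : List (β ⊕ Unit)} (hu : Delim u) (hv : Delim v) (h : ev μ u = ev μ v) :
    segVal g u = segVal g v := by
  obtain ⟨z, hz, hzv⟩ := exists_delim_segVal h1 hgen (segVal g v)⁻¹
  have hvz : v ++ z ∈ sepLang g := ⟨hv.append hz, by rw [segVal_append hv, hzv, mul_inv_cancel]⟩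
  have huz : u ++ z ∈ sepLang g := by
    rw [hS, ev_append, h, ← ev_append, ← hS]
    exact hvz
  have := huz.2
  rw [segVal_append hu, hzv, mul_inv_eq_one] at this
  exact this

/-- A delimited word with idempotent image whose local monoid is a group. -/
lemma exists_local_group {M : Type} [Monoid M] [Finite M] (μ : β ⊕ Unit → M) :
    ∃ u, Delim u ∧ ev μ u * ev μ u = ev μ u ∧
      ∀ z, ∃ z', ev μ u * ev μ (z ++ u ++ z') * ev μ u = ev μ u := by
  classical
  let S : Set M := {m | ∃ u, Delim u ∧ ev μ u = m}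
  have hpow : ∀ (u : List (β ⊕ Unit)), Delim u → ∀ n, 1 ≤ n → ev μ u ^ n ∈ S := by
    intro u hu n hn
    induction n with
    | zero => omega
    | succ n ih =>
      rcases Nat.eq_zero_or_pos n with rfl | hn'
      · exact ⟨u, hu, (pow_one _).symm⟩
      · obtain ⟨v, hv, hv'⟩ := ih hn'
        exact ⟨v ++ u, hv.append hu, by rw [ev_append, hv', pow_succ]⟩
  let P : Set M := {e | e ∈ S ∧ e * e = e}
  obtain ⟨n, hn, hidem⟩ := exists_pow_idem (ev μ [(.inr () : β ⊕ Unit)])
  have hP : P.Nonempty := ⟨_, hpow _ ⟨rfl, [], rfl⟩ n hn, hidem⟩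
  obtain ⟨e, ⟨⟨u, hu, rfl⟩, he⟩, hmin⟩ :=
    (Set.toFinite P).exists_minimalFor (fun e => ((fun s => e * s * e) '' S).ncard) P hP
  refine ⟨u, hu, he, fun z => ?_⟩
  set e := ev μ u with hedef
  obtain ⟨m, hm, hm'⟩ := exists_pow_idem (ev μ (u ++ z ++ u))
  set x := ev μ (u ++ z ++ u) with hx
  set f := x ^ m with hf
  have hex : e * x = x := by simp only [hx, ev_append, ← hedef, ← mul_assoc, he]
  have hxe : x * e = x := by simp only [hx, ev_append, ← hedef, mul_assoc, he]
  have hfS : f ∈ S := hpow _ (delim_append hu z hu) m hm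
  obtain ⟨k, rfl⟩ : ∃ k, m = k + 1 := ⟨m - 1, by omega⟩
  have hef : e * f = f := by rw [hf, pow_succ', ← mul_assoc, hex]
  have hfe : f * e = f := by rw [hf, pow_succ, mul_assoc, hxe]
  have hsub : (fun s => f * s * f) '' S ⊆ (fun s => e * s * e) '' S := by
    rintro _ ⟨s, ⟨v, hv, rfl⟩, rfl⟩
    obtain ⟨w, hw, hw'⟩ := hfS
    refine ⟨f * ev μ v * f, ⟨w ++ v ++ w, delim_append hw v hw, by rw [ev_append, ev_append, hw']⟩,
      ?_⟩
    show e * (f * ev μ v * f) * e = f * ev μ v * f
    rw [← mul_assoc, ← mul_assoc, hef, mul_assoc (f * ev μ v), hfe]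
  have hle := hmin (j := f) ⟨hfS, hm'⟩ (Set.ncard_le_ncard hsub)
  have heq := Set.eq_of_subset_of_ncard_le hsub hle
  have hfe' : f = e := by
    have : e ∈ (fun s => e * s * e) '' S := ⟨e, ⟨u, hu, rfl⟩, by simp [he]⟩
    rw [← heq] at this
    obtain ⟨s, -, hs⟩ := this
    simp only at hs
    calc f = f * e := hfe.symm
      _ = f * (f * s * f) := by rw [hs]
      _ = f * s * f := by rw [← mul_assoc, ← mul_assoc, hm']
      _ = e := hs
  set y := ev μ (z ++ u) with hy
  have hrep : ∀ j : ℕ, ev μ (List.replicate j (z ++ u)).flatten = y ^ j := fun j => by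
    induction j with
    | zero => simp
    | succ j ih => rw [List.replicate_succ, List.flatten_cons, ev_append, ih, pow_succ']
  have hxy : ∀ j : ℕ, x ^ (j + 1) = e * y ^ (j + 1) := fun j => by
    have h0 : x = e * y := by simp only [hx, hy, ev_append, ← hedef, mul_assoc]
    induction j with
    | zero => simpa using h0
    | succ j ih =>
      have hye : y * e = y := by simp only [hy, ev_append, ← hedef, mul_assoc, he]
      calc x ^ (j + 1 + 1) = e * (y ^ j * (y * e)) * y := by
            rw [pow_succ, ih, h0]; simp only [pow_succ, mul_assoc]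
        _ = e * y ^ (j + 1 + 1) := by rw [hye]; simp only [pow_succ, mul_assoc]
  refine ⟨(List.replicate k (z ++ u)).flatten, ?_⟩
  rw [ev_append, hrep, ← hy, ← pow_succ', ← hxy, ← hf, hfe, hfe']

end Vale.Agent.P329.Height2
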