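import Vale.Agent.P329.Height2.Atom

/-!
P329: the normal form of a run of one letter, and transitivity of the kernel for sparse runs.
-/

namespace Vale.Agent.P329.Height2

lemma exists_pow_periodic {M : Type} [Monoid M] [Finite M] (x : M) :
    ∃ n, 1 ≤ n ∧ ∀ m, n ≤ m → ∀ k, x ^ (m + k * n) = x ^ m := by
  obtain ⟨n, hn, h⟩ := exists_pow_idem x
  refine ⟨n, hn, fun m hm k => ?_⟩
  obtain ⟨r, rfl⟩ : ∃ r, m = n + r := ⟨m - n, by omega⟩
  induction k with
  | zero => simp
  | succ k ih =>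
    rw [show n + r + (k + 1) * n = (n + r + k * n) + n by ring, pow_add, ih, ← pow_add,
      show n + r + n = n + n + r by omega, pow_add, pow_add x n n, h, ← pow_add]

lemma exists_pow_const {M : Type} [Monoid M] [Finite M] (hM : GroupFree M) (x : M) :
    ∃ n, 1 ≤ n ∧ ∀ m, n ≤ m → x ^ m = x ^ n := by
  obtain ⟨n, hn, h⟩ := exists_pow_idem x
  have hfree : x ^ n * x = x ^ n := by
    refine hM (x ^ n) (x ^ n * x) (x ^ (n + n - 1)) h (by rw [← mul_assoc, h]) ?_ ?_
    · rw [mul_assoc, ← pow_succ', pow_succ, ← mul_assoc, h]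
    · rw [← pow_succ, ← pow_add, show n + 1 + (n + n - 1) = n + n + n by omega, pow_add, pow_add,
        h, h]
  refine ⟨n, hn, fun m hm => ?_⟩
  induction m, hm using Nat.le_induction with
  | base => rfl
  | succ m _ ih => rw [pow_succ, ih, hfree]

section

variable {α M : Type} [Monoid M] (μ : α → M)

lemma ev_replicate (a : α) : ∀ L, ev μ (List.replicate L a) = μ a ^ L
  | 0 => (pow_zero _).symm
  | L + 1 => by rw [List.replicate_succ, ev_cons, ev_replicate a L, pow_succ']

end

lemma act_union {Q : Type} (X Y : Set Q) (h : Rel Q) : act (X ∪ Y) h = act X h ∪ act Y h := by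
  ext q
  constructor
  · rintro ⟨p, hp | hp, hq⟩
    exacts [Or.inl ⟨p, hp, hq⟩, Or.inr ⟨p, hp, hq⟩]
  · rintro (⟨p, hp, hq⟩ | ⟨p, hp, hq⟩)
    exacts [⟨p, Or.inl hp, hq⟩, ⟨p, Or.inr hp, hq⟩]

namespace Block

variable {α : Type} (B : Block α)

/-- **Normal form of runs.** A long run of one letter sends a set to a constant part and finitely
many shifts of one periodic family, whose period may be taken divisible by any `p`. -/
theorem unary_normal_form (a : α) (p : ℕ) [NeZero p] :
    ∃ (L₀ d : ℕ) (P : ℕ → Set (Option B.N)), 0 < d ∧ p ∣ d ∧ (∀ i k, P (i + k * d) = P i) ∧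
      ∀ X : Set (Option B.N), ∃ (C : Set (Option B.N)) (A : Finset ℕ), (∀ c ∈ A, c ≤ L₀) ∧
        ∀ L, L₀ ≤ L → act X (B.trans (List.replicate L a)) = C ∪ ⋃ c ∈ A, P (L - c) := by
  classical
  obtain ⟨n, hn, hper⟩ := exists_pow_periodic (B.step a)
  obtain ⟨L₁, hL₁, hconst⟩ := exists_pow_const B.groupFree (B.μ a)
  let R : ℕ → Set (Option B.N) := fun i => act {none} (B.step a ^ i)
  have hR : ∀ i, n ≤ i → ∀ k, R (i + k * n) = R i := fun i hi k => by
    simp only [R, hper i hi k]
  have htr : ∀ L, B.trans (List.replicate L a) = B.step a ^ L := fun L => ev_replicate B.step a L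
  refine ⟨L₁ + n + n, n * p, fun i => R (i + n * n), Nat.mul_pos hn (NeZero.pos p),
    ⟨n, mul_comm _ _⟩, fun i k => ?_, fun X => ?_⟩
  · show R (i + k * (n * p) + n * n) = R (i + n * n)
    rw [show i + k * (n * p) + n * n = i + n * n + k * p * n by ring]
    exact hR _ (le_add_left (Nat.le_mul_of_pos_left n hn)) _
  refine ⟨{q' | ∃ q ∈ X, q' = some (B.val q * B.μ a ^ L₁) ∨
      B.val q * B.μ a ^ L₁ ∈ B.F ∧ ∃ i, i ≤ n + n ∧ q' ∈ R i},
    (Finset.Ico 1 L₁).filter fun j => ∃ q ∈ X, B.val q * B.μ a ^ j ∈ B.F, ?_, fun L hL => ?_⟩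
  · intro c hc
    have := (Finset.mem_Ico.mp (Finset.mem_filter.mp hc).1).2
    omega
  ext q'
  simp only [Set.mem_union, Set.mem_iUnion, Set.mem_ofPred_eq, Finset.mem_filter, Finset.mem_Ico]
  constructor
  · rintro ⟨q, hq, h⟩
    rcases (B.trans_iff _ q q').mp h with ⟨h0, -⟩ | ⟨-, rfl⟩ | ⟨u, v, hu, huv, hF, hv⟩
    · simp only [List.replicate_eq_nil_iff] at h0
      omega
    · exact Or.inl ⟨q, hq, Or.inl (by rw [ev_replicate, hconst L (by omega)])⟩
    · obtain ⟨hlen, hu', hv'⟩ := List.append_eq_replicate_iff.mp huv.symm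
      rw [hv', htr] at hv
      rw [hu', ev_replicate] at hF
      have hj : 1 ≤ u.length := List.length_pos_of_ne_nil hu
      by_cases hj1 : L₁ ≤ u.length
      · refine Or.inl ⟨q, hq, Or.inr ⟨by rwa [← hconst _ hj1], ?_⟩⟩
        by_cases hv0 : v.length ≤ n + n
        · exact ⟨v.length, hv0, mem_act_single.mpr hv⟩
        · refine ⟨n + (v.length - n) % n, by have := Nat.mod_lt (v.length - n) hn; omega, ?_⟩
          rw [← hR (n + (v.length - n) % n) (by omega) ((v.length - n) / n),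
            show n + (v.length - n) % n + (v.length - n) / n * n = v.length by
              have := Nat.mod_add_div' (v.length - n) n; omega]
          exact mem_act_single.mpr hv
      · refine Or.inr ⟨u.length, ⟨⟨hj, by omega⟩, q, hq, hF⟩, ?_⟩
        rw [show L - u.length = v.length by omega, hR _ (by omega) n]
        exact mem_act_single.mpr hv
  · rintro (⟨q, hq, rfl | ⟨hF, i, hi, hi'⟩⟩ | ⟨j, ⟨⟨hj, hjL⟩, q, hq, hF⟩, hi'⟩)
    · refine ⟨q, hq, (B.trans_iff _ _ _).mpr (Or.inr (Or.inl ⟨?_, ?_⟩))⟩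
      · simp only [ne_eq, List.replicate_eq_nil_iff]; omega
      · rw [ev_replicate, hconst L (by omega)]
    · refine ⟨q, hq, (B.trans_iff _ _ _).mpr (Or.inr (Or.inr
        ⟨List.replicate (L - i) a, List.replicate i a, ?_, ?_, ?_, ?_⟩))⟩
      · simp only [ne_eq, List.replicate_eq_nil_iff]; omega
      · rw [List.replicate_append_replicate, show L - i + i = L by omega]
      · rwa [ev_replicate, hconst (L - i) (by omega)]
      · rw [htr]; exact mem_act_single.mp hi'
    · rw [hR _ (by omega) n] at hi'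
      refine ⟨q, hq, (B.trans_iff _ _ _).mpr (Or.inr (Or.inr
        ⟨List.replicate j a, List.replicate (L - j) a, ?_, ?_, ?_, ?_⟩))⟩
      · simp only [ne_eq, List.replicate_eq_nil_iff]; omega
      · rw [List.replicate_append_replicate, show j + (L - j) = L by omega]
      · rwa [ev_replicate]
      · rw [htr]; exact mem_act_single.mp hi'

variable {B} {u : List α}

/-- An atom covered by two fixed families of sets is one of them. -/
lemma Atom.eq_of_union {X : Set (Option B.N)} (hX : B.Atom u X) {ι : Type} (A : Finset ι)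
    {C : Set (Option B.N)} {P : ι → Set (Option B.N)}
    (h : act (C ∪ ⋃ c ∈ A, P c) (B.trans u) = X) :
    act C (B.trans u) = X ∨ ∃ c ∈ A, act (P c) (B.trans u) = X := by
  obtain ⟨q, hq, hq'⟩ := hX.irred _ h
  simp only [Set.mem_union, Set.mem_iUnion] at hq
  rcases hq with hq | ⟨c, hc, hq⟩
  · refine Or.inl (Set.Subset.antisymm ?_ ?_)
    · exact h ▸ act_mono Set.subset_union_left _
    · exact hq' ▸ act_mono (Set.singleton_subset_iff.mpr hq) _
  · refine Or.inr ⟨c, hc, Set.Subset.antisymm ?_ ?_⟩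
    · exact h ▸ act_mono (fun r hr => Or.inr (Set.mem_biUnion hc hr)) _
    · exact hq' ▸ act_mono (Set.singleton_subset_iff.mpr hq) _

end Block

namespace LocalData

variable {α G : Type} [Group G] (D : LocalData α)

/-- A homomorphism from the local group. -/
structure Hom (G : Type) [Group G] where
  /-- The value at the local group element of a word. -/
  ψ : List α → G
  map_mul : ∀ z z', ψ (z ++ D.u ++ z') = ψ z * ψ z'
  congr : ∀ z z', D.h z = D.h z' → ψ z = ψ z'

namespace Hom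

variable {D} (Φ : D.Hom G)

lemma map_nil : Φ.ψ [] = 1 := by
  have h : Φ.ψ ([] ++ D.u ++ []) = Φ.ψ [] := Φ.congr _ _ (by rw [← D.h_mul, D.h_nil, D.idem])
  rw [Φ.map_mul] at h
  exact mul_eq_left.mp h

lemma map_inv {z z' : List α} (h : D.h z * D.h z' = D.B.trans D.u) : Φ.ψ z' = (Φ.ψ z)⁻¹ := by
  have h1 := Φ.congr (z ++ D.u ++ z') [] (by rw [← D.h_mul, h, D.h_nil])
  rw [Φ.map_mul, Φ.map_nil] at h1
  exact (inv_eq_of_mul_eq_one_right h1).symm

/-- Two atoms are related by the kernel. -/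
def Same (X Y : Set (Option D.B.N)) : Prop := ∃ z, Φ.ψ z = 1 ∧ act X (D.h z) = Y

variable {X Y Z : Set (Option D.B.N)}

lemma same_refl (hX : D.B.Atom D.u X) : Φ.Same X X :=
  ⟨[], Φ.map_nil, by rw [D.h_nil, hX.fixed]⟩

lemma same_symm (hX : D.B.Atom D.u X) (h : Φ.Same X Y) : Φ.Same Y X := by
  obtain ⟨z, hz, rfl⟩ := h
  obtain ⟨z', h1, -⟩ := D.exists_inv z
  exact ⟨z', by rw [Φ.map_inv h1, hz, inv_one], by rw [act_act, h1, hX.fixed]⟩

lemma same_trans (h : Φ.Same X Y) (h' : Φ.Same Y Z) : Φ.Same X Z := by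
  obtain ⟨z, hz, rfl⟩ := h
  obtain ⟨z', hz', rfl⟩ := h'
  exact ⟨z ++ D.u ++ z', by rw [Φ.map_mul, hz, hz', mul_one], by rw [act_act, D.h_mul]⟩

lemma same_act (h : Φ.Same X Y) (w : List α) : Φ.Same (act X (D.h w)) (act Y (D.h w)) := by
  obtain ⟨z, hz, rfl⟩ := h
  obtain ⟨w', h1, -⟩ := D.exists_inv w
  refine ⟨w' ++ D.u ++ z ++ D.u ++ w, ?_, ?_⟩
  · rw [Φ.map_mul, Φ.map_mul, Φ.map_inv h1, hz, mul_one, inv_mul_cancel]
  · rw [← D.h_mul, ← D.h_mul, act_act, act_act, ← mul_assoc, ← mul_assoc, h1, D.idem_h]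

/-- Words of equal value move an atom into the same kernel class. -/
lemma same_of_eq {z z' : List α} (h : Φ.ψ z = Φ.ψ z') :
    Φ.Same (act X (D.h z)) (act X (D.h z')) := by
  obtain ⟨w, h1, -⟩ := D.exists_inv z
  refine ⟨w ++ D.u ++ z', ?_, ?_⟩
  · rw [Φ.map_mul, Φ.map_inv h1, h, inv_mul_cancel]
  · rw [act_act, ← D.h_mul, ← mul_assoc, h1, D.idem_h]

open scoped Pointwise in
/-- **Sparse runs.** If a run of length `L` has value `f L`, with `f` trivial outside a set `E`
with `2|E|² < p`, then no run moves an atom out of its kernel class. -/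
theorem sparse_run (a : α) (p : ℕ) [NeZero p] (f : ZMod p → G)
    (hf : ∀ L : ℕ, Φ.ψ (List.replicate L a) = f L) (E : Finset (ZMod p))
    (hE : ∀ i ∉ E, f i = 1) (hp : 2 * E.card ^ 2 < p) (hX : D.B.Atom D.u X) (L : ℕ) :
    Φ.Same X (act X (D.h (List.replicate L a))) := by
  classical
  obtain ⟨L₀, d, P, hd, hpd, hP, hform⟩ := D.B.unary_normal_form a p
  have hd0 : (d : ZMod p) = 0 := by obtain ⟨e, he⟩ := hpd; simp [he]
  have hlift : ∀ i : ZMod p, ∃ L, L₀ ≤ L ∧ (L : ZMod p) = i := fun i =>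
    ⟨i.val + L₀ * p, le_add_left (Nat.le_mul_of_pos_right _ (NeZero.pos p)), by simp⟩
  obtain ⟨i₀, hi₀⟩ : ∃ i₀, i₀ ∉ E := by
    by_contra h
    push Not at h
    have := Finset.card_le_card (fun i _ => h i : (Finset.univ : Finset (ZMod p)) ⊆ E)
    rw [Finset.card_univ, ZMod.card] at this
    nlinarith
  by_contra hmove₀
  -- the orbit, and runs on it
  let R : ℕ → Set (Option D.B.N) := fun i => act (P i) (D.B.trans D.u)
  let Orb : Set (Option D.B.N) → Prop := fun Y => ∃ z, act X (D.h z) = Y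
  have hsame_run : ∀ (Y : Set (Option D.B.N)) (l : ℕ), f l = 1 →
      Φ.Same Y (act Y (D.h (List.replicate l a))) := fun Y l hl =>
    ⟨_, (hf l).trans hl, rfl⟩
  have orb_act : ∀ Y, Orb Y → ∀ z, Orb (act Y (D.h z)) := by
    rintro _ ⟨y, rfl⟩ z
    exact ⟨y ++ D.u ++ z, by rw [act_act, D.h_mul]⟩
  have orb_eq : ∀ Y Z, Orb Y → Orb Z → Y ⊆ Z → Y = Z := by
    rintro _ _ ⟨y, rfl⟩ ⟨z, rfl⟩ h
    obtain ⟨y', h1, h2⟩ := D.exists_inv y
    have hz : act (act X (D.h y)) (D.h (y' ++ D.u ++ z)) = act X (D.h z) := by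
      rw [← D.h_mul, act_act, ← mul_assoc, h1, D.idem_h]
    rw [← hz] at h
    rw [← hz, D.eq_of_subset_act (D.atom_act hX y) h]
  -- the normal form of an atom of the orbit which is moved by some run
  have hnf : ∀ Y, Orb Y → (∃ l : ℕ, ¬ Φ.Same Y (act Y (D.h (List.replicate l a)))) →
      ∃ A : Finset ℕ, (∀ c ∈ A, c ≤ L₀) ∧
        (∀ l, L₀ ≤ l → ∃ c ∈ A, act Y (D.h (List.replicate l a)) = R (l - c)) ∧
        ∀ c ∈ A, ∀ i, Orb (R i) → f ((c + i : ℕ) : ZMod p) = 1 → Φ.Same Y (R i) := by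
    intro Y hY ⟨l₁, hl₁⟩
    have hYa : D.B.Atom D.u Y := by obtain ⟨y, rfl⟩ := hY; exact D.atom_act hX y
    obtain ⟨C, A, hA, hform⟩ := hform Y
    have hval : ∀ l, L₀ ≤ l → act Y (D.h (List.replicate l a)) =
        act (C ∪ ⋃ c ∈ A, P (l - c)) (D.B.trans D.u) := fun l hl => by
      rw [← hform l hl, D.h_eq, mul_assoc, ← act_act, hYa.fixed, act_act]
    have hR : ∀ c ∈ A, ∀ l, L₀ ≤ l → R (l - c) ⊆ act Y (D.h (List.replicate l a)) :=
      fun c hc l hl => by
        rw [hval l hl]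
        exact act_mono (Set.subset_union_of_subset_right
          (Set.subset_biUnion_of_mem (u := fun c => P (l - c)) hc) _) _
    refine ⟨A, hA, fun l hl => ?_, fun c hc i hi hfi => ?_⟩
    · rcases (D.atom_act hYa _).eq_of_union A (P := fun c => P (l - c)) (hval l hl).symm with h | h
      · exfalso
        have hconst : ∀ l', L₀ ≤ l' →
            act Y (D.h (List.replicate l a)) = act Y (D.h (List.replicate l' a)) := fun l' hl' =>
          orb_eq _ _ (orb_act Y hY _) (orb_act Y hY _)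
            (h ▸ (hval l' hl').symm ▸ act_mono Set.subset_union_left _)
        obtain ⟨l', hl', hcast⟩ := hlift i₀
        obtain ⟨l₂, hl₂, hcast₂⟩ := hlift (l₁ : ZMod p)
        have hs := hsame_run Y l' (by rw [hcast]; exact hE _ hi₀)
        rw [← hconst l' hl', hconst l₂ hl₂] at hs
        exact hl₁ (Φ.same_trans hs (Φ.same_of_eq (by rw [hf, hf, hcast₂])))
      · obtain ⟨c, hc, h⟩ := h
        exact ⟨c, hc, h.symm⟩
    · have hl : L₀ ≤ c + i + L₀ * d := le_add_left (Nat.le_mul_of_pos_right _ hd)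
      have hsub := hR c hc _ hl
      rw [show c + i + L₀ * d - c = i + L₀ * d by omega,
        show R (i + L₀ * d) = R i by simp only [R, hP]] at hsub
      rw [orb_eq _ _ hi (orb_act Y hY _) hsub]
      exact hsame_run Y _ (by simpa [hd0] using hfi)
  -- the atom and its image
  set Y := act X (D.h (List.replicate L a)) with hYdef
  have hXorb : Orb X := ⟨[], by rw [D.h_nil, hX.fixed]⟩
  have hYorb : Orb Y := orb_act X hXorb _
  obtain ⟨L', hL', hLL'⟩ := hlift (L : ZMod p)
  have hY' : ¬ Φ.Same X (act X (D.h (List.replicate L' a))) := fun h =>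
    hmove₀ (Φ.same_trans h (Φ.same_of_eq (by rw [hf, hf, hLL'])))
  obtain ⟨A, hA, hcov, hAkey⟩ := hnf X hXorb ⟨L, hmove₀⟩
  obtain ⟨A', -, hcov', hA'key⟩ := hnf Y hYorb ⟨L, fun h => hmove₀ (by
    obtain ⟨z, h1, -⟩ := D.exists_inv (List.replicate L a)
    have := Φ.same_act h z
    rwa [hYdef, act_act, h1, hX.fixed, act_act, act_act, h1, D.h_idem] at this)⟩
  -- counting
  obtain ⟨c₁, hc₁, hσ⟩ := hcov L' hL'
  obtain ⟨c₂, hc₂, -⟩ := hcov' L₀ le_rfl
  let U : Finset (ZMod p) := A.image Nat.cast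
  let S : Finset ℕ := (Finset.range d).filter fun i => Orb (R i)
  have hU : U ⊆ E.image (fun e : ZMod p => e - ((L' - c₁ : ℕ) : ZMod p)) := by
    intro t ht
    obtain ⟨c, hc, rfl⟩ := Finset.mem_image.mp ht
    refine Finset.mem_image.mpr ⟨((c + (L' - c₁) : ℕ) : ZMod p), ?_, by simp⟩
    by_contra hne
    refine hY' ?_
    rw [hσ]
    exact hAkey c hc _ (hσ ▸ orb_act X hXorb _) (hE _ hne)
  have hS : S.image (Nat.cast : ℕ → ZMod p) ⊆
      E.image (fun e => e - (c₁ : ZMod p)) ∪ E.image (fun e => e - (c₂ : ZMod p)) := by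
    intro t ht
    obtain ⟨i, hi, rfl⟩ := Finset.mem_image.mp ht
    have hi' := (Finset.mem_filter.mp hi).2
    simp only [Finset.mem_union, Finset.mem_image]
    by_contra hne
    push Not at hne
    refine hmove₀ (Φ.same_trans (hAkey c₁ hc₁ i hi' (hE _ fun h => hne.1 _ h (by simp)))
      (Φ.same_symm (D.atom_act hX _) (hA'key c₂ hc₂ i hi' (hE _ fun h => hne.2 _ h (by simp)))))
  have hcover : (Finset.univ : Finset (ZMod p)) ⊆ U + S.image Nat.cast := by
    intro t _
    obtain ⟨l, hl, rfl⟩ := hlift t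
    obtain ⟨c, hc, hc'⟩ := hcov l hl
    refine Finset.mem_add.mpr ⟨_, Finset.mem_image_of_mem _ hc, (((l - c) % d : ℕ) : ZMod p),
      Finset.mem_image_of_mem _ ?_, ?_⟩
    · refine Finset.mem_filter.mpr ⟨Finset.mem_range.mpr (Nat.mod_lt _ hd), ?_⟩
      have : R ((l - c) % d) = R (l - c) := by
        conv_rhs => rw [← Nat.mod_add_div' (l - c) d]
        simp only [R, hP]
      rw [this, ← hc']
      exact orb_act X hXorb _
    · have h := congrArg (fun m : ℕ => (m : ZMod p)) (Nat.mod_add_div' (l - c) d)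
      simp only [Nat.cast_add, Nat.cast_mul, hd0, mul_zero, add_zero] at h
      rw [h, Nat.cast_sub ((hA c hc).trans hl), add_sub_cancel]
  have h1 := Finset.card_le_card hcover
  rw [Finset.card_univ, ZMod.card] at h1
  have h2 := (Finset.card_le_card hU).trans Finset.card_image_le
  have h3 := ((Finset.card_le_card hS).trans (Finset.card_union_le _ _)).trans
    (add_le_add Finset.card_image_le Finset.card_image_le)
  have h4 := Finset.card_add_le (s := U) (t := S.image (Nat.cast : ℕ → ZMod p))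
  nlinarith [Nat.mul_le_mul h2 h3]

/-- If the values of the sparse runs generate the group, the kernel is transitive on every orbit
of atoms. -/
theorem kernel_transitive (a : α) (p : ℕ) [NeZero p] (f : ZMod p → G)
    (hf : ∀ L : ℕ, Φ.ψ (List.replicate L a) = f L) (E : Finset (ZMod p))
    (hE : ∀ i ∉ E, f i = 1) (hp : 2 * E.card ^ 2 < p)
    (hgen : Subgroup.closure (Set.range f) = ⊤) (hX : D.B.Atom D.u X) (z : List α) :
    ∃ w, Φ.ψ w = 1 ∧ act X (D.h w) = act X (D.h z) := by
  have key : ∀ v : G, ∀ Y, D.B.Atom D.u Y → ∃ w, Φ.ψ w = v ∧ Φ.Same Y (act Y (D.h w)) := by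
    intro v
    have hv : v ∈ Subgroup.closure (Set.range f) := hgen ▸ Subgroup.mem_top v
    induction hv using Subgroup.closure_induction with
    | mem x hx =>
      obtain ⟨i, rfl⟩ := hx
      exact fun Y hY => ⟨_, (hf i.val).trans (by simp), Φ.sparse_run a p f hf E hE hp hY _⟩
    | one => exact fun Y hY => ⟨[], Φ.map_nil, by rw [D.h_nil, hY.fixed]; exact Φ.same_refl hY⟩
    | mul x y _ _ hx hy =>
      intro Y hY
      obtain ⟨w, rfl, hw⟩ := hx Y hY
      obtain ⟨w', rfl, hw'⟩ := hy _ (D.atom_act hY w)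
      exact ⟨w ++ D.u ++ w', Φ.map_mul .., by
        rw [← D.h_mul, ← act_act]; exact Φ.same_trans hw hw'⟩
    | inv x _ hx =>
      intro Y hY
      obtain ⟨w, rfl, hw⟩ := hx Y hY
      obtain ⟨w', h1, -⟩ := D.exists_inv w
      refine ⟨w', Φ.map_inv h1, Φ.same_symm (D.atom_act hY w') ?_⟩
      have := Φ.same_act hw w'
      rwa [act_act, h1, hY.fixed] at this
  obtain ⟨w, hw, h⟩ := key (Φ.ψ z) X hX
  exact Φ.same_trans h (Φ.same_of_eq hw)

end Hom

end LocalData

namespace Front

variable {β G : Type} [Group G] {g : List β → G} (F : Front g)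

/-- The local data of a front. -/
def data : LocalData (β ⊕ Unit) where
  B := F.B
  u := F.u
  idem := F.idem
  inv := F.inv

/-- The value map of a front. -/
def hom : F.data.Hom G where
  ψ z := segVal g (F.u ++ z ++ F.u)
  congr z z' h := F.welldef z z' (by rw [LocalData.h_eq, LocalData.h_eq] at h; exact h)
  map_mul z z' := by
    show segVal g (F.u ++ (z ++ F.u ++ z') ++ F.u) = _
    rw [show F.u ++ (z ++ F.u ++ z') ++ F.u = (F.u ++ z ++ F.u) ++ (z' ++ F.u) by
      simp [List.append_assoc], segVal_append (delim_append F.delim z F.delim)]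
    congr 1
    rw [List.append_assoc F.u, segVal_append F.delim (z' ++ F.u), F.val_one, one_mul]

lemma hom_run (h1 : g [] = 1) (a : β) (L : ℕ) :
    F.hom.ψ (List.replicate L (.inl a)) = g (List.replicate L a) := by
  show segVal g (F.u ++ List.replicate L (.inl a) ++ F.u) = _
  rw [List.append_assoc, segVal_append F.delim, F.val_one, one_mul, segVal, ← List.map_replicate,
    valAux_map, List.nil_append]
  obtain ⟨u', hu'⟩ := List.head?_eq_some_iff.mp F.delim.1
  have hv := F.val_one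
  rw [hu', segVal, valAux, h1, one_mul] at hv
  rw [hu', valAux, hv, mul_one]

/-- **Sparse runs make the kernel transitive.** If runs of a letter have values given by a function
on `ZMod p` that is trivial outside a set `E` with `2|E|² < p` and whose values generate the group,
then every orbit of atoms is a single orbit of the kernel. -/
theorem kernel_transitive (h1 : g [] = 1) (a : β) (p : ℕ) [NeZero p] (f : ZMod p → G)
    (hf : ∀ L : ℕ, g (List.replicate L a) = f L) (E : Finset (ZMod p))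
    (hE : ∀ i ∉ E, f i = 1) (hp : 2 * E.card ^ 2 < p)
    (hgen : Subgroup.closure (Set.range f) = ⊤) {X : Set (Option F.B.N)}
    (hX : F.B.Atom F.u X) (z : List (β ⊕ Unit)) :
    ∃ w, segVal g (F.u ++ w ++ F.u) = 1 ∧ act X (F.data.h w) = act X (F.data.h z) :=
  F.hom.kernel_transitive (.inl a) p f (fun L => (F.hom_run h1 a L).trans (hf L)) E hE hp hgen hX z

end Front

end Vale.Agent.P329.Height2
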